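import Mathlib
import Vale.Agent.H5.BinPack.Inst

/-!
# A recursion step for pair-into-bins bounds (support for P302)

`PairBound bins objs k` (from `Vale.Agent.H5.BinPack`) says that at most `k` disjoint pairs of
objects can be put into distinct bins (a pair fits a bin if its sum is at most the capacity).

`pairBound_step`: if a gadget `Y` has bound `p` and at most `2 p + 3` objects, then adding one new
small object `z`, one new bin `β` and a three-bin top block whose own objects fill at most two of
its bins gives a gadget with bound `p + 4`, provided the top objects fit no bin of `Y` and fit the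
bin `β` only together with `z`.
-/

namespace Vale.Agent.H84.PairRec

open Vale.Agent.H5.BinPack

/-- Linear bookkeeping: sums of pointwise relations. -/
lemma sum_rel {α : Type*} (F : List α)
    (fT fβ fa fb ftt zc w zb zβ zT wb wβ wT : α → ℕ)
    (h : ∀ t ∈ F, fT t + fβ t + fa t + fb t = 1 ∧ fb t ≤ zb t ∧ zb t + zβ t + zT t ≤ zc t ∧
      2 * fa t + wb t + wβ t + wT t ≤ w t ∧ 2 * fb t ≤ wb t + zb t ∧
      2 * fβ t ≤ wβ t + 2 * zβ t ∧ fT t ≤ wT t + zT t + ftt t) :
    F.length = (F.map fT).sum + (F.map fβ).sum + (F.map fa).sum + (F.map fb).sum ∧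
      (F.map fb).sum ≤ (F.map zb).sum ∧
      (F.map zb).sum + (F.map zβ).sum + (F.map zT).sum ≤ (F.map zc).sum ∧
      2 * (F.map fa).sum + (F.map wb).sum + (F.map wβ).sum + (F.map wT).sum ≤ (F.map w).sum ∧
      2 * (F.map fb).sum ≤ (F.map wb).sum + (F.map zb).sum ∧
      2 * (F.map fβ).sum ≤ (F.map wβ).sum + 2 * (F.map zβ).sum ∧
      (F.map fT).sum ≤ (F.map wT).sum + (F.map zT).sum + (F.map ftt).sum := by
  induction F with
  | nil => simp
  | cons t F ih =>
    have h1 := h t List.mem_cons_self
    have h2 := ih (fun s hs => h s (List.mem_cons_of_mem _ hs))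
    simp only [List.map_cons, List.sum_cons, List.length_cons]
    omega

/-- Sum of an indicator is a `countP`. -/
lemma sum_ite_eq_countP {α : Type*} (F : List α) (P : α → Prop) [DecidablePred P] :
    (F.map (fun t => if P t then 1 else 0)).sum = F.countP (fun t => decide (P t)) := by
  induction F with
  | nil => simp
  | cons t F ih =>
    simp only [List.map_cons, List.sum_cons, List.countP_cons, ih, decide_eq_true_eq]
    omega

/-- A sub-multiset all of whose elements satisfy `P` lies in the `P`-part. -/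
lemma le_filter_of_le (M L : List ℤ) (P : ℤ → Prop) [DecidablePred P]
    (h : (M : Multiset ℤ) ≤ (L : Multiset ℤ)) (hM : ∀ x ∈ M, P x) :
    (M : Multiset ℤ) ≤ ((L.filter (fun x => decide (P x)) : List ℤ) : Multiset ℤ) := by
  have h1 : M.filter (fun x => decide (P x)) = M := by
    rw [List.filter_eq_self]
    intro a ha
    simpa using hM a ha
  have h2 := Multiset.filter_le_filter P h
  rw [Multiset.filter_coe, Multiset.filter_coe, h1] at h2
  exact h2


section defs
variable (binsY objsY topB topO : List ℤ) (z β : ℤ)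

/-- number of the two objects equal to `z` -/
def zc (t : ℤ × ℤ × ℤ) : ℕ := (if t.2.1 = z then 1 else 0) + (if t.2.2 = z then 1 else 0)
/-- number of the two objects lying in `objsY` -/
def wc (t : ℤ × ℤ × ℤ) : ℕ :=
  (if t.2.1 ∈ objsY then 1 else 0) + (if t.2.2 ∈ objsY then 1 else 0)
def fT (t : ℤ × ℤ × ℤ) : ℕ := if t.1 ∈ topB then 1 else 0
def fβ (t : ℤ × ℤ × ℤ) : ℕ := if t.1 = β then 1 else 0
def fa (t : ℤ × ℤ × ℤ) : ℕ := if t.1 ∈ binsY ∧ t.2.1 ≠ z ∧ t.2.2 ≠ z then 1 else 0
def fb (t : ℤ × ℤ × ℤ) : ℕ := if t.1 ∈ binsY ∧ ¬(t.2.1 ≠ z ∧ t.2.2 ≠ z) then 1 else 0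
def ftt (t : ℤ × ℤ × ℤ) : ℕ := if t.1 ∈ topB ∧ t.2.1 ∈ topO ∧ t.2.2 ∈ topO then 1 else 0
def zb (t : ℤ × ℤ × ℤ) : ℕ := if t.1 ∈ binsY then zc z t else 0
def zβ' (t : ℤ × ℤ × ℤ) : ℕ := if t.1 = β then zc z t else 0
def zT (t : ℤ × ℤ × ℤ) : ℕ := if t.1 ∈ topB then zc z t else 0
def wb (t : ℤ × ℤ × ℤ) : ℕ :=
  if t.1 ∈ binsY ∧ ¬(t.2.1 ≠ z ∧ t.2.2 ≠ z) then wc objsY t else 0
def wβ' (t : ℤ × ℤ × ℤ) : ℕ := if t.1 = β then wc objsY t else 0
def wT (t : ℤ × ℤ × ℤ) : ℕ := if t.1 ∈ topB then wc objsY t else 0

end defs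

/-- The pointwise relations for one fitting pair. -/
lemma pointwise (binsY objsY topB topO : List ℤ) (z β : ℤ)
    (hβY : β ∉ binsY) (hβT : β ∉ topB) (hYT : ∀ t ∈ binsY, t ∉ topB)
    (hzY : z ∉ objsY) (hzT : z ∉ topO) (hOYT : ∀ y ∈ objsY, y ∉ topO)
    (h1 : ∀ u ∈ topO, ∀ x ∈ objsY ++ z :: topO, ∀ t ∈ binsY, t < u + x)
    (h2 : ∀ u ∈ topO, ∀ y ∈ objsY ++ topO, β < u + y)
    (t : ℤ × ℤ × ℤ) (hb : t.1 ∈ binsY ++ β :: topB)
    (ho1 : t.2.1 ∈ objsY ++ z :: topO) (ho2 : t.2.2 ∈ objsY ++ z :: topO)
    (hfit : t.2.1 + t.2.2 ≤ t.1) :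
    fT topB t + fβ β t + fa binsY z t + fb binsY z t = 1 ∧ fb binsY z t ≤ zb binsY z t ∧
      zb binsY z t + zβ' z β t + zT topB z t ≤ zc z t ∧
      2 * fa binsY z t + wb binsY objsY z t + wβ' objsY β t + wT objsY topB t ≤ wc objsY t ∧
      2 * fb binsY z t ≤ wb binsY objsY z t + zb binsY z t ∧
      2 * fβ β t ≤ wβ' objsY β t + 2 * zβ' z β t ∧
      fT topB t ≤ wT objsY topB t + zT topB z t + ftt topB topO t := by
  obtain ⟨b, o1, o2⟩ := t
  simp only at hb ho1 ho2 hfit
  simp only [fT, fβ, fa, fb, ftt, zb, zβ', zT, wb, wβ', wT, zc, wc]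
  -- classify the first object
  have c1 : (o1 ∈ objsY ∧ o1 ≠ z ∧ o1 ∉ topO) ∨ (o1 = z ∧ o1 ∉ objsY ∧ o1 ∉ topO) ∨
      (o1 ∈ topO ∧ o1 ≠ z ∧ o1 ∉ objsY) := by
    rcases List.mem_append.mp ho1 with h | h
    · exact Or.inl ⟨h, fun e => hzY (e ▸ h), hOYT _ h⟩
    · rcases List.mem_cons.mp h with h | h
      · exact Or.inr (Or.inl ⟨h, h ▸ hzY, h ▸ hzT⟩)
      · exact Or.inr (Or.inr ⟨h, fun e => hzT (e ▸ h), fun h' => hOYT _ h' h⟩)
  have c2 : (o2 ∈ objsY ∧ o2 ≠ z ∧ o2 ∉ topO) ∨ (o2 = z ∧ o2 ∉ objsY ∧ o2 ∉ topO) ∨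
      (o2 ∈ topO ∧ o2 ≠ z ∧ o2 ∉ objsY) := by
    rcases List.mem_append.mp ho2 with h | h
    · exact Or.inl ⟨h, fun e => hzY (e ▸ h), hOYT _ h⟩
    · rcases List.mem_cons.mp h with h | h
      · exact Or.inr (Or.inl ⟨h, h ▸ hzY, h ▸ hzT⟩)
      · exact Or.inr (Or.inr ⟨h, fun e => hzT (e ▸ h), fun h' => hOYT _ h' h⟩)
  have cb : (b ∈ binsY ∧ b ≠ β ∧ b ∉ topB) ∨ (b = β ∧ b ∉ binsY ∧ b ∉ topB) ∨
      (b ∈ topB ∧ b ≠ β ∧ b ∉ binsY) := by
    rcases List.mem_append.mp hb with h | h
    · exact Or.inl ⟨h, fun e => hβY (e ▸ h), hYT _ h⟩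
    · rcases List.mem_cons.mp h with h | h
      · exact Or.inr (Or.inl ⟨h, h ▸ hβY, h ▸ hβT⟩)
      · exact Or.inr (Or.inr ⟨h, fun e => hβT (e ▸ h), fun h' => hYT _ h' h⟩)
  rcases cb with ⟨b1, b2, b3⟩ | ⟨b1, b2, b3⟩ | ⟨b1, b2, b3⟩
  · -- a bin of `Y`: no top objects
    rcases c1 with ⟨p1, p2, p3⟩ | ⟨p1, p2, p3⟩ | ⟨p1, p2, p3⟩
    · rcases c2 with ⟨q1, q2, q3⟩ | ⟨q1, q2, q3⟩ | ⟨q1, q2, q3⟩
      · simp [b1, b2, b3, p1, p2, p3, q1, q2, q3, hβY, hβT, hzY, hzT]
      · simp [b1, b2, b3, p1, p2, p3, q1, q2, q3, hβY, hβT, hzY, hzT]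
      · exact absurd (h1 o2 q1 o1 ho1 b b1) (by omega)
    · rcases c2 with ⟨q1, q2, q3⟩ | ⟨q1, q2, q3⟩ | ⟨q1, q2, q3⟩
      · simp [b1, b2, b3, p1, p2, p3, q1, q2, q3, hβY, hβT, hzY, hzT]
      · simp [b1, b2, b3, p1, p2, p3, q1, q2, q3, hβY, hβT, hzY, hzT]
      · exact absurd (h1 o2 q1 o1 ho1 b b1) (by omega)
    · exact absurd (h1 o1 p1 o2 ho2 b b1) (by omega)
  · -- the bin `β`
    rcases c1 with ⟨p1, p2, p3⟩ | ⟨p1, p2, p3⟩ | ⟨p1, p2, p3⟩
    · rcases c2 with ⟨q1, q2, q3⟩ | ⟨q1, q2, q3⟩ | ⟨q1, q2, q3⟩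
      · simp [b1, b2, b3, p1, p2, p3, q1, q2, q3, hβY, hβT, hzY, hzT]
      · simp [b1, b2, b3, p1, p2, p3, q1, q2, q3, hβY, hβT, hzY, hzT]
      · have := h2 o2 q1 o1 (List.mem_append_left _ p1)
        omega
    · rcases c2 with ⟨q1, q2, q3⟩ | ⟨q1, q2, q3⟩ | ⟨q1, q2, q3⟩
      · simp [b1, b2, b3, p1, p2, p3, q1, q2, q3, hβY, hβT, hzY, hzT]
      · simp [b1, b2, b3, p1, p2, p3, q1, q2, q3, hβY, hβT, hzY, hzT]
      · simp [b1, b2, b3, p1, p2, p3, q1, q2, q3, hβY, hβT, hzY, hzT]
    · rcases c2 with ⟨q1, q2, q3⟩ | ⟨q1, q2, q3⟩ | ⟨q1, q2, q3⟩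
      · have := h2 o1 p1 o2 (List.mem_append_left _ q1)
        omega
      · simp [b1, b2, b3, p1, p2, p3, q1, q2, q3, hβY, hβT, hzY, hzT]
      · have := h2 o1 p1 o2 (List.mem_append_right _ q1)
        omega
  · -- a top bin
    rcases c1 with ⟨p1, p2, p3⟩ | ⟨p1, p2, p3⟩ | ⟨p1, p2, p3⟩ <;>
      rcases c2 with ⟨q1, q2, q3⟩ | ⟨q1, q2, q3⟩ | ⟨q1, q2, q3⟩ <;>
      simp [b1, b2, b3, p1, p2, p3, q1, q2, q3, hβY, hβT, hzY, hzT]


/-- `count z [a, b]` as a sum of indicators. -/
lemma count_pair (z a b : ℤ) :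
    List.count z [a, b] = (if a = z then 1 else 0) + (if b = z then 1 else 0) := by
  by_cases h1 : a = z <;> by_cases h2 : b = z <;> simp [List.count_cons, h1, h2]

/-- `countP (· ∈ L) [a, b]` as a sum of indicators. -/
lemma countP_pair (L : List ℤ) (a b : ℤ) :
    List.countP (fun x => decide (x ∈ L)) [a, b] =
      (if a ∈ L then 1 else 0) + (if b ∈ L then 1 else 0) := by
  by_cases h1 : a ∈ L <;> by_cases h2 : b ∈ L <;> simp [List.countP_cons, h1, h2]

/-- **Recursion step for pair bounds.** -/
theorem pairBound_step (binsY objsY topB topO : List ℤ) (z β : ℤ) (p : ℕ)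
    (hY : PairBound binsY objsY p) (hlen : objsY.length ≤ 2 * p + 3)
    (hT : PairBound topB topO 2) (hB : topB.length ≤ 3)
    (hβY : β ∉ binsY) (hβT : β ∉ topB) (hYT : ∀ t ∈ binsY, t ∉ topB)
    (hzY : z ∉ objsY) (hzT : z ∉ topO) (hOYT : ∀ y ∈ objsY, y ∉ topO)
    (h1 : ∀ u ∈ topO, ∀ x ∈ objsY ++ z :: topO, ∀ t ∈ binsY, t < u + x)
    (h2 : ∀ u ∈ topO, ∀ y ∈ objsY ++ topO, β < u + y) :
    PairBound (binsY ++ β :: topB) (objsY ++ z :: topO) (p + 4) := by
  intro F hbins hobjs hfit
  have hbmem : ∀ t ∈ F, t.1 ∈ binsY ++ β :: topB := by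
    intro t ht
    have : t.1 ∈ ((F.map (fun t => t.1) : List ℤ) : Multiset ℤ) := by
      simp only [Multiset.mem_coe, List.mem_map]
      exact ⟨t, ht, rfl⟩
    exact Multiset.mem_coe.mp (Multiset.mem_of_le hbins this)
  have homem : ∀ t ∈ F, t.2.1 ∈ objsY ++ z :: topO ∧ t.2.2 ∈ objsY ++ z :: topO := by
    intro t ht
    have m1 : t.2.1 ∈ ((F.flatMap (fun t => [t.2.1, t.2.2]) : List ℤ) : Multiset ℤ) := by
      simp only [Multiset.mem_coe, List.mem_flatMap]
      exact ⟨t, ht, by simp⟩
    have m2 : t.2.2 ∈ ((F.flatMap (fun t => [t.2.1, t.2.2]) : List ℤ) : Multiset ℤ) := by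
      simp only [Multiset.mem_coe, List.mem_flatMap]
      exact ⟨t, ht, by simp⟩
    exact ⟨Multiset.mem_coe.mp (Multiset.mem_of_le hobjs m1),
      Multiset.mem_coe.mp (Multiset.mem_of_le hobjs m2)⟩
  have hpt := fun t (ht : t ∈ F) =>
    pointwise binsY objsY topB topO z β hβY hβT hYT hzY hzT hOYT h1 h2 t (hbmem t ht)
      (homem t ht).1 (homem t ht).2 (hfit t ht)
  obtain ⟨e0, e1, e2, e3, e4, e5, e6⟩ :=
    sum_rel F (fT topB) (fβ β) (fa binsY z) (fb binsY z) (ftt topB topO) (zc z) (wc objsY)
      (zb binsY z) (zβ' z β) (zT topB z) (wb binsY objsY z) (wβ' objsY β) (wT objsY topB) hpt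
  -- at most three pairs in top bins
  have gT : (F.map (fT topB)).sum ≤ 3 := by
    have e : (F.map (fT topB)).sum = F.countP (fun t => decide (t.1 ∈ topB)) :=
      sum_ite_eq_countP F (fun t => t.1 ∈ topB)
    have e' : F.countP (fun t => decide (t.1 ∈ topB)) =
        (F.map (fun t => t.1)).countP (fun x => decide (x ∈ topB)) := by
      rw [List.countP_map]; rfl
    have le := Multiset.countP_le_of_le (fun x => x ∈ topB) hbins
    rw [Multiset.coe_countP, Multiset.coe_countP] at le
    have c1 : (binsY ++ β :: topB).countP (fun x => decide (x ∈ topB)) ≤ topB.length := by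
      rw [List.countP_append, List.countP_cons]
      have z1 : binsY.countP (fun x => decide (x ∈ topB)) = 0 := by
        rw [List.countP_eq_zero]
        intro a ha
        simpa using hYT a ha
      have z2 := List.countP_le_length (p := fun x => decide (x ∈ topB)) (l := topB)
      simp only [hβT, decide_false, Bool.false_eq_true, if_false]
      omega
    omega
  -- at most one pair in the bin `β`
  have gβ : (F.map (fβ β)).sum ≤ 1 := by
    have e : (F.map (fβ β)).sum = F.countP (fun t => decide (t.1 = β)) :=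
      sum_ite_eq_countP F (fun t => t.1 = β)
    have e' : F.countP (fun t => decide (t.1 = β)) =
        (F.map (fun t => t.1)).countP (fun x => decide (x = β)) := by
      rw [List.countP_map]; rfl
    have le := Multiset.countP_le_of_le (fun x => x = β) hbins
    rw [Multiset.coe_countP, Multiset.coe_countP] at le
    have c1 : (binsY ++ β :: topB).countP (fun x => decide (x = β)) ≤ 1 := by
      rw [List.countP_append, List.countP_cons]
      have z1 : binsY.countP (fun x => decide (x = β)) = 0 := by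
        rw [List.countP_eq_zero]
        intro a ha
        simp only [decide_eq_true_eq]
        exact fun e => hβY (e ▸ ha)
      have z2 : topB.countP (fun x => decide (x = β)) = 0 := by
        rw [List.countP_eq_zero]
        intro a ha
        simp only [decide_eq_true_eq]
        exact fun e => hβT (e ▸ ha)
      simp only [decide_true, if_true]
      omega
    omega
  -- `z` is used at most once
  have gz : (F.map (zc z)).sum ≤ 1 := by
    have e : (F.map (zc z)).sum = List.count z (F.flatMap (fun t => [t.2.1, t.2.2])) := by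
      rw [List.count_flatMap]
      congr 1
      apply List.map_congr_left
      intro t _
      simp only [Function.comp, count_pair, zc]
    have le := Multiset.count_le_of_le z hobjs
    rw [Multiset.coe_count, Multiset.coe_count] at le
    have c1 : List.count z (objsY ++ z :: topO) = 1 := by
      rw [List.count_append, List.count_cons_self, List.count_eq_zero.mpr hzY,
        List.count_eq_zero.mpr hzT]
    omega
  -- objects of `Y` used
  have gw : (F.map (wc objsY)).sum ≤ 2 * p + 3 := by
    have e : (F.map (wc objsY)).sum =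
        List.countP (fun x => decide (x ∈ objsY)) (F.flatMap (fun t => [t.2.1, t.2.2])) := by
      rw [List.countP_flatMap]
      congr 1
      apply List.map_congr_left
      intro t _
      simp only [Function.comp, countP_pair, wc]
    have le := Multiset.countP_le_of_le (fun x => x ∈ objsY) hobjs
    rw [Multiset.coe_countP, Multiset.coe_countP] at le
    have c1 : (objsY ++ z :: topO).countP (fun x => decide (x ∈ objsY)) ≤ objsY.length := by
      rw [List.countP_append, List.countP_cons]
      have z1 := List.countP_le_length (p := fun x => decide (x ∈ objsY)) (l := objsY)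
      have z2 : topO.countP (fun x => decide (x ∈ objsY)) = 0 := by
        rw [List.countP_eq_zero]
        intro a ha
        simp only [decide_eq_true_eq]
        exact fun h' => hOYT a h' ha
      simp only [hzY, decide_false, Bool.false_eq_true, if_false]
      omega
    omega
  -- pairs of `Y`-objects in `Y`-bins
  have ga : (F.map (fa binsY z)).sum ≤ p := by
    have e : (F.map (fa binsY z)).sum =
        F.countP (fun t => decide (t.1 ∈ binsY ∧ t.2.1 ≠ z ∧ t.2.2 ≠ z)) :=
      sum_ite_eq_countP F (fun t => t.1 ∈ binsY ∧ t.2.1 ≠ z ∧ t.2.2 ≠ z)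
    rw [e, List.countP_eq_length_filter]
    set F' := F.filter (fun t => decide (t.1 ∈ binsY ∧ t.2.1 ≠ z ∧ t.2.2 ≠ z)) with hF'
    have hsub : List.Sublist F' F := List.filter_sublist
    have hprop : ∀ t ∈ F', t.1 ∈ binsY ∧ t.2.1 ≠ z ∧ t.2.2 ≠ z := by
      intro t ht
      have := (List.mem_filter.mp ht).2
      simpa using this
    apply hY F'
    · -- bins
      have s1 : ((F'.map (fun t => t.1) : List ℤ) : Multiset ℤ) ≤
          ((binsY ++ β :: topB : List ℤ) : Multiset ℤ) :=
        le_trans (Multiset.coe_le.mpr (hsub.map _).subperm) hbins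
      have s2 := le_filter_of_le _ _ (fun x => x ∈ binsY) s1 (by
        intro x hx
        obtain ⟨t, ht, rfl⟩ := List.mem_map.mp hx
        exact (hprop t ht).1)
      have s3 : (binsY ++ β :: topB).filter (fun x => decide (x ∈ binsY)) = binsY := by
        rw [List.filter_append]
        have a1 : binsY.filter (fun x => decide (x ∈ binsY)) = binsY := by
          rw [List.filter_eq_self]
          intro a ha
          simpa using ha
        have a2 : (β :: topB).filter (fun x => decide (x ∈ binsY)) = [] := by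
          rw [List.filter_eq_nil_iff]
          intro a ha
          simp only [decide_eq_true_eq]
          rcases List.mem_cons.mp ha with h | h
          · exact h ▸ hβY
          · exact fun h' => hYT a h' h
        rw [a1, a2, List.append_nil]
      rw [s3] at s2
      exact s2
    · -- objects
      have s1 : ((F'.flatMap (fun t => [t.2.1, t.2.2]) : List ℤ) : Multiset ℤ) ≤
          ((objsY ++ z :: topO : List ℤ) : Multiset ℤ) :=
        le_trans (Multiset.coe_le.mpr (hsub.flatMap _).subperm) hobjs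
      have s2 := le_filter_of_le _ _ (fun x => x ∈ objsY) s1 (by
        intro x hx
        obtain ⟨t, ht, hxt⟩ := List.mem_flatMap.mp hx
        have htF : t ∈ F := hsub.subset ht
        obtain ⟨q1, q2, q3⟩ := hprop t ht
        -- the objects of a `Y`-bin pair without `z` lie in `objsY`
        have key : ∀ o o' : ℤ, o ∈ objsY ++ z :: topO → o' ∈ objsY ++ z :: topO → o ≠ z →
            t.1 < o + o' ∨ o ∈ objsY := by
          intro o o' ho ho' hne
          rcases List.mem_append.mp ho with h | h
          · exact Or.inr h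
          · rcases List.mem_cons.mp h with h | h
            · exact absurd h hne
            · exact Or.inl (h1 o h o' ho' t.1 q1)
        have hf := hfit t htF
        simp only [List.mem_cons, List.not_mem_nil, or_false] at hxt
        rcases hxt with rfl | rfl
        · rcases key t.2.1 t.2.2 (homem t htF).1 (homem t htF).2 q2 with h | h
          · omega
          · exact h
        · rcases key t.2.2 t.2.1 (homem t htF).2 (homem t htF).1 q3 with h | h
          · omega
          · exact h)
      have s3 : (objsY ++ z :: topO).filter (fun x => decide (x ∈ objsY)) = objsY := by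
        rw [List.filter_append]
        have a1 : objsY.filter (fun x => decide (x ∈ objsY)) = objsY := by
          rw [List.filter_eq_self]
          intro a ha
          simpa using ha
        have a2 : (z :: topO).filter (fun x => decide (x ∈ objsY)) = [] := by
          rw [List.filter_eq_nil_iff]
          intro a ha
          simp only [decide_eq_true_eq]
          rcases List.mem_cons.mp ha with h | h
          · exact h ▸ hzY
          · exact fun h' => hOYT a h' h
        rw [a1, a2, List.append_nil]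
      rw [s3] at s2
      exact s2
    · intro t ht
      exact hfit t (hsub.subset ht)
  -- pairs of top objects in top bins
  have gtt : (F.map (ftt topB topO)).sum ≤ 2 := by
    have e : (F.map (ftt topB topO)).sum =
        F.countP (fun t => decide (t.1 ∈ topB ∧ t.2.1 ∈ topO ∧ t.2.2 ∈ topO)) :=
      sum_ite_eq_countP F (fun t => t.1 ∈ topB ∧ t.2.1 ∈ topO ∧ t.2.2 ∈ topO)
    rw [e, List.countP_eq_length_filter]
    set F' := F.filter (fun t => decide (t.1 ∈ topB ∧ t.2.1 ∈ topO ∧ t.2.2 ∈ topO)) with hF'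
    have hsub : List.Sublist F' F := List.filter_sublist
    have hprop : ∀ t ∈ F', t.1 ∈ topB ∧ t.2.1 ∈ topO ∧ t.2.2 ∈ topO := by
      intro t ht
      have := (List.mem_filter.mp ht).2
      simpa using this
    apply hT F'
    · have s1 : ((F'.map (fun t => t.1) : List ℤ) : Multiset ℤ) ≤
          ((binsY ++ β :: topB : List ℤ) : Multiset ℤ) :=
        le_trans (Multiset.coe_le.mpr (hsub.map _).subperm) hbins
      have s2 := le_filter_of_le _ _ (fun x => x ∈ topB) s1 (by
        intro x hx
        obtain ⟨t, ht, rfl⟩ := List.mem_map.mp hx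
        exact (hprop t ht).1)
      have s3 : (binsY ++ β :: topB).filter (fun x => decide (x ∈ topB)) = topB := by
        rw [List.filter_append]
        have a1 : binsY.filter (fun x => decide (x ∈ topB)) = [] := by
          rw [List.filter_eq_nil_iff]
          intro a ha
          simpa using hYT a ha
        have a2 : (β :: topB).filter (fun x => decide (x ∈ topB)) = topB := by
          rw [List.filter_cons_of_neg (by simpa using hβT), List.filter_eq_self]
          intro a ha
          simpa using ha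
        rw [a1, a2, List.nil_append]
      rw [s3] at s2
      exact s2
    · have s1 : ((F'.flatMap (fun t => [t.2.1, t.2.2]) : List ℤ) : Multiset ℤ) ≤
          ((objsY ++ z :: topO : List ℤ) : Multiset ℤ) :=
        le_trans (Multiset.coe_le.mpr (hsub.flatMap _).subperm) hobjs
      have s2 := le_filter_of_le _ _ (fun x => x ∈ topO) s1 (by
        intro x hx
        obtain ⟨t, ht, hxt⟩ := List.mem_flatMap.mp hx
        obtain ⟨_, q2, q3⟩ := hprop t ht
        simp only [List.mem_cons, List.not_mem_nil, or_false] at hxt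
        rcases hxt with rfl | rfl
        · exact q2
        · exact q3)
      have s3 : (objsY ++ z :: topO).filter (fun x => decide (x ∈ topO)) = topO := by
        rw [List.filter_append]
        have a1 : objsY.filter (fun x => decide (x ∈ topO)) = [] := by
          rw [List.filter_eq_nil_iff]
          intro a ha
          simpa using hOYT a ha
        have a2 : (z :: topO).filter (fun x => decide (x ∈ topO)) = topO := by
          rw [List.filter_cons_of_neg (by simpa using hzT), List.filter_eq_self]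
          intro a ha
          simpa using ha
        rw [a1, a2, List.nil_append]
      rw [s3] at s2
      exact s2
    · intro t ht
      exact hfit t (hsub.subset ht)
  omega

end Vale.Agent.H84.PairRec
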